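import Mathlib.Analysis.VonNeumannAlgebra.Basic
import Mathlib.Analysis.InnerProductSpace.Adjoint

/-!
# P096: the definitions of the final statement
-/

namespace Vale.Agent.P096.Strong

universe u

variable {H : Type u} [NormedAddCommGroup H] [InnerProductSpace ℂ H] [CompleteSpace H]

/-- the closed operator-norm unit ball `M₁` of a von Neumann algebra `M` -/
def ball (M : VonNeumannAlgebra H) : Set (H →L[ℂ] H) := {x | x ∈ M ∧ ‖x‖ ≤ 1}

/-- the Kadison-Kastler distance `d(M, N)` -/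
noncomputable def kkDist (M N : VonNeumannAlgebra H) : ℝ :=
  max (⨆ x : ball M, ⨅ y : ball N, ‖(x : H →L[ℂ] H) - (y : H →L[ℂ] H)‖)
    (⨆ y : ball N, ⨅ x : ball M, ‖(x : H →L[ℂ] H) - (y : H →L[ℂ] H)‖)

/-- there is a unitary operator `u` with `‖u - 1‖ < ε` and `u M u* = N` -/
def ConjWithin (M N : VonNeumannAlgebra H) (ε : ℝ) : Prop :=
  ∃ u ∈ unitary (H →L[ℂ] H), ‖u - 1‖ < ε ∧
    (fun x => u * x * star u) '' (M : Set (H →L[ℂ] H)) = (N : Set (H →L[ℂ] H))

end Vale.Agent.P096.Strong
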